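import Mathlib

set_option autoImplicit false

namespace Claimed.Agent.R032

open Set

/-- support function of the zonotope `zon d 1` -/
noncomputable def S {d : ℕ} (v : Fin d → ℝ) : ℝ :=
  ∑ i, max (v i) 0 + max (-(∑ i, v i)) 0

theorem S_eq {d : ℕ} (v : Fin d → ℝ) :
    S v = ∑ i, max (-(v i)) 0 + max (∑ i, v i) 0 := by
  have h1 : ∀ r : ℝ, max r 0 = r + max (-r) 0 := by
    intro r
    rcases le_total r 0 with h | h
    · rw [max_eq_right h, max_eq_left (by linarith)]; ring
    · rw [max_eq_left h, max_eq_right (by linarith)]; ring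
  unfold S
  have h2 : ∑ i, max (v i) 0 = ∑ i, v i + ∑ i, max (-(v i)) 0 := by
    rw [← Finset.sum_add_distrib]
    exact Finset.sum_congr rfl fun i _ => h1 (v i)
  rw [h2, h1 (∑ i, v i)]
  ring

theorem S_nonneg {d : ℕ} (v : Fin d → ℝ) : 0 ≤ S v := by
  unfold S
  have : 0 ≤ ∑ i, max (v i) 0 := Finset.sum_nonneg fun i _ => le_max_right _ _
  have := le_max_right (-(∑ i, v i)) 0
  linarith

theorem S_zero {d : ℕ} : S (0 : Fin d → ℝ) = 0 := by
  simp [S]

theorem S_smul {d : ℕ} (r : ℝ) (hr : 0 ≤ r) (v : Fin d → ℝ) : S (r • v) = r * S v := by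
  unfold S
  have h1 : ∀ s : ℝ, max (r * s) 0 = r * max s 0 := by
    intro s
    rw [mul_max_of_nonneg _ _ hr, mul_zero]
  simp only [Pi.smul_apply, smul_eq_mul, h1, ← Finset.mul_sum, ← mul_neg, mul_add]

theorem S_single_pos {d : ℕ} (i : Fin d) : S (Pi.single i (1 : ℝ)) = 1 := by
  have h : ∀ k, max ((Pi.single i (1 : ℝ) : Fin d → ℝ) k) 0 = if k = i then 1 else 0 := by
    intro k
    by_cases hk : k = i
    · subst hk; simp
    · simp [hk]
  simp [S, h]

theorem S_single_neg {d : ℕ} (i : Fin d) : S (Pi.single i (-1 : ℝ)) = 1 := by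
  have h : ∀ k, max ((Pi.single i (-1 : ℝ) : Fin d → ℝ) k) 0 = 0 := by
    intro k
    by_cases hk : k = i
    · subst hk; simp
    · simp [hk]
  simp [S, h]

theorem S_single_sub {d : ℕ} (i j : Fin d) (hij : i ≠ j) :
    S (Pi.single i (1 : ℝ) - Pi.single j (1 : ℝ)) = 1 := by
  have h : ∀ k, max ((Pi.single i (1 : ℝ) - Pi.single j (1 : ℝ) : Fin d → ℝ) k) 0 =
      if k = i then 1 else 0 := by
    intro k
    by_cases hk : k = i
    · subst hk; simp [hij]
    · by_cases hk2 : k = j
      · subst hk2; simp [hk]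
      · simp [hk, hk2]
  unfold S
  rw [Finset.sum_congr rfl fun k _ => h k]
  simp

/-- membership in the zonotope in terms of the support function -/
theorem zon_iff {d : ℕ} (c : ℝ) (x : Fin d → ℝ) :
    ((∀ i, |x i| ≤ c) ∧ ∀ i j, x i - x j ≤ c) ↔ ∀ v : Fin d → ℝ, ∑ i, v i * x i ≤ c * S v := by
  constructor
  · rintro ⟨h1, h2⟩ v
    rcases isEmpty_or_nonempty (Fin d) with he | hne
    · simp [S]
    · obtain ⟨i0, -, hi0⟩ := Finset.exists_min_image (Finset.univ : Finset (Fin d)) x
        Finset.univ_nonempty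
      have hc : 0 ≤ c := le_trans (abs_nonneg _) (h1 i0)
      set m := min (x i0) 0 with hm
      have hm0 : m ≤ 0 := min_le_right _ _
      have hmc : -c ≤ m := le_min (abs_le.1 (h1 i0)).1 (by linarith)
      have hmx : ∀ i, m ≤ x i := fun i => le_trans (min_le_left _ _) (hi0 i (Finset.mem_univ i))
      have hxm : ∀ i, x i ≤ m + c := by
        intro i
        rcases le_total (x i0) 0 with h | h
        · rw [hm, min_eq_left h]; have := h2 i i0; linarith
        · rw [hm, min_eq_right h]; have := (abs_le.1 (h1 i)).2; linarith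
      have e1 : ∑ i, v i * x i = ∑ i, v i * (x i - m) + m * ∑ i, v i := by
        rw [Finset.mul_sum, ← Finset.sum_add_distrib]
        exact Finset.sum_congr rfl fun i _ => by ring
      have e2 : ∑ i, v i * (x i - m) ≤ ∑ i, max (v i) 0 * c := by
        apply Finset.sum_le_sum
        intro i _
        have a1 : v i ≤ max (v i) 0 := le_max_left _ _
        have a2 : 0 ≤ max (v i) 0 := le_max_right _ _
        have a3 : 0 ≤ x i - m := by linarith [hmx i]
        have a4 : x i - m ≤ c := by linarith [hxm i]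
        calc v i * (x i - m) ≤ max (v i) 0 * (x i - m) := mul_le_mul_of_nonneg_right a1 a3
          _ ≤ max (v i) 0 * c := mul_le_mul_of_nonneg_left a4 a2
      have e3 : m * ∑ i, v i ≤ c * max (-(∑ i, v i)) 0 := by
        have a1 : -(∑ i, v i) ≤ max (-(∑ i, v i)) 0 := le_max_left _ _
        have a2 : 0 ≤ max (-(∑ i, v i)) 0 := le_max_right _ _
        calc m * ∑ i, v i = (-m) * (-(∑ i, v i)) := by ring
          _ ≤ (-m) * max (-(∑ i, v i)) 0 := mul_le_mul_of_nonneg_left a1 (by linarith)
          _ ≤ c * max (-(∑ i, v i)) 0 := mul_le_mul_of_nonneg_right (by linarith) a2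
      rw [e1]
      unfold S
      rw [← Finset.sum_mul] at e2
      nlinarith
  · intro h
    have h1 : ∀ i, |x i| ≤ c := by
      intro i
      rw [abs_le]
      constructor
      · have := h (Pi.single i (-1 : ℝ))
        rw [S_single_neg] at this
        simp [Pi.single_apply] at this
        linarith
      · have := h (Pi.single i (1 : ℝ))
        rw [S_single_pos] at this
        simp [Pi.single_apply] at this
        linarith
    refine ⟨h1, fun i j => ?_⟩
    by_cases hij : i = j
    · subst hij
      have := le_trans (abs_nonneg _) (h1 i)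
      linarith
    · have := h (Pi.single i (1 : ℝ) - Pi.single j (1 : ℝ))
      rw [S_single_sub i j hij] at this
      simp [Pi.single_apply, sub_mul, Finset.sum_sub_distrib] at this
      linarith

end Claimed.Agent.R032
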