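import Mathlib

set_option autoImplicit false

namespace Claimed.Agent.R032

open MeasureTheory Set

/-- corner simplex -/
def cs (d : ℕ) (al : Fin d → ℝ) (be : ℝ) : Set (Fin d → ℝ) :=
  {x | (∀ i, al i ≤ x i) ∧ ∑ i, x i ≤ be}

theorem isClosed_cs (d : ℕ) (al : Fin d → ℝ) (be : ℝ) : IsClosed (cs d al be) := by
  have h1 : IsClosed {x : Fin d → ℝ | ∀ i, al i ≤ x i} := by
    simp only [ofPred_forall]
    exact isClosed_iInter fun i => isClosed_le continuous_const (continuous_apply i)
  have h2 : IsClosed {x : Fin d → ℝ | ∑ i, x i ≤ be} :=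
    isClosed_le (continuous_finsetSum _ fun i _ => continuous_apply i) continuous_const
  exact h1.inter h2

theorem measurableSet_cs (d : ℕ) (al : Fin d → ℝ) (be : ℝ) : MeasurableSet (cs d al be) :=
  (isClosed_cs d al be).measurableSet

theorem cs_eq_empty (d : ℕ) (al : Fin d → ℝ) (be : ℝ) (h : be < ∑ i, al i) :
    cs d al be = ∅ := by
  ext x
  simp only [cs, mem_ofPred_eq, mem_empty_iff_false, iff_false, not_and, not_le]
  intro hx
  exact lt_of_lt_of_le h (Finset.sum_le_sum fun i _ => hx i)

theorem lintegral_pow_aux (d : ℕ) (a b : ℝ) (hab : a ≤ b) :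
    ∫⁻ x in Icc a b, ENNReal.ofReal ((b - x) ^ d / d.factorial) =
      ENNReal.ofReal ((b - a) ^ (d + 1) / (d + 1).factorial) := by
  rw [← ofReal_integral_eq_lintegral_ofReal]
  · congr 1
    rw [integral_Icc_eq_integral_Ioc, ← intervalIntegral.integral_of_le hab]
    rw [intervalIntegral.integral_div]
    rw [intervalIntegral.integral_comp_sub_left (fun y => y ^ d) b]
    rw [integral_pow]
    simp only [sub_self]
    rw [Nat.factorial_succ]
    push_cast
    have : (d.factorial : ℝ) ≠ 0 := by positivity
    have h2 : (d : ℝ) + 1 ≠ 0 := by positivity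
    field_simp
    ring
  · apply Continuous.integrableOn_Icc
    fun_prop
  · rw [Filter.EventuallyLE, ae_restrict_iff' measurableSet_Icc]
    refine Filter.Eventually.of_forall fun x hx => ?_
    have : 0 ≤ b - x := sub_nonneg.2 hx.2
    simp only [Pi.zero_apply]
    positivity

theorem volume_cs (d : ℕ) (al : Fin d → ℝ) (be : ℝ) (h : ∑ i, al i ≤ be) :
    volume (cs d al be) = ENNReal.ofReal ((be - ∑ i, al i) ^ d / d.factorial) := by
  induction d generalizing be with
  | zero =>
    have : cs 0 al be = univ := by
      ext x
      simp only [cs, mem_ofPred_eq, mem_univ, iff_true]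
      exact ⟨fun i => i.elim0, by simpa using h⟩
    rw [this, volume_pi, ← Set.pi_univ (univ : Set (Fin 0)), Measure.pi_pi]
    simp
  | succ d ih =>
    let e := MeasurableEquiv.piFinSuccAbove (fun _ : Fin (d + 1) => ℝ) 0
    have he : MeasurePreserving e := volume_preserving_piFinSuccAbove (fun _ => ℝ) 0
    have hm : MeasurableSet (e.symm ⁻¹' cs (d + 1) al be) :=
      e.symm.measurable (measurableSet_cs _ _ _)
    rw [← he.symm.measure_preimage (measurableSet_cs _ _ _).nullMeasurableSet]
    rw [Measure.volume_eq_prod, Measure.prod_apply hm]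
    set al' : Fin d → ℝ := fun i => al i.succ with hal'
    set b : ℝ := be - ∑ i, al' i with hb
    have hsum : ∑ i, al i = al 0 + ∑ i, al' i := Fin.sum_univ_succ al
    have hab : al 0 ≤ b := by rw [hb]; linarith
    have key : ∀ x0 : ℝ, volume (Prod.mk x0 ⁻¹' (e.symm ⁻¹' cs (d + 1) al be)) =
        (Icc (al 0) b).indicator (fun x0 => ENNReal.ofReal ((b - x0) ^ d / d.factorial)) x0 := by
      intro x0
      have hsec : Prod.mk x0 ⁻¹' (e.symm ⁻¹' cs (d + 1) al be) =
          if al 0 ≤ x0 then cs d al' (be - x0) else ∅ := by
        ext x'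
        simp only [mem_preimage, cs, mem_ofPred_eq, e, MeasurableEquiv.piFinSuccAbove_symm_apply]
        split_ifs with h0
        · simp only [mem_ofPred_eq, Fin.forall_fin_succ, Fin.sum_univ_succ]
          simp [Fin.insertNthEquiv, h0, hal']
          intro _
          constructor <;> intro _ <;> linarith
        · simp only [mem_empty_iff_false, iff_false, not_and]
          intro hh
          exact absurd (by simpa [Fin.insertNthEquiv] using hh 0) h0
      rw [hsec]
      by_cases h0 : al 0 ≤ x0
      · rw [if_pos h0]
        by_cases h1 : x0 ≤ b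
        · rw [indicator_of_mem (show x0 ∈ Icc (al 0) b from ⟨h0, h1⟩)]
          rw [ih al' (be - x0) (by rw [hb] at h1; linarith)]
          congr 2
          rw [hb]; ring
        · rw [indicator_of_notMem (fun hh => h1 hh.2)]
          rw [cs_eq_empty _ _ _ (by rw [hb] at h1; push Not at h1; linarith)]
          simp
      · rw [if_neg h0, indicator_of_notMem (fun hh => h0 hh.1)]
        simp
    simp_rw [key]
    rw [lintegral_indicator measurableSet_Icc, lintegral_pow_aux d _ _ hab]
    congr 2
    rw [hb, hsum]; ring

theorem simplex_eq (d : ℕ) :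
    convexHull ℝ (insert 0 (range fun i : Fin d => EuclideanSpace.single i (1 : ℝ))) =
      {x : EuclideanSpace ℝ (Fin d) | (∀ i, 0 ≤ x i) ∧ ∑ i, x i ≤ 1} := by
  apply Set.Subset.antisymm
  · apply convexHull_min
    · intro x hx
      rcases hx with rfl | ⟨i, rfl⟩
      · simp
      · constructor
        · intro j
          simp only [EuclideanSpace.single, PiLp.single_apply]
          split_ifs <;> norm_num
        · simp
    · intro x hx y hy a b ha hb hab
      refine ⟨fun i => ?_, ?_⟩
      · have := hx.1 i
        have := hy.1 i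
        simp only [PiLp.add_apply, PiLp.smul_apply, smul_eq_mul]
        positivity
      · simp only [PiLp.add_apply, PiLp.smul_apply, smul_eq_mul, Finset.sum_add_distrib,
          ← Finset.mul_sum]
        have h1 := hx.2
        have h2 := hy.2
        nlinarith
  · intro x hx
    obtain ⟨h0, h1⟩ := hx
    have hx' : x = (1 - ∑ i, x i) • (0 : EuclideanSpace ℝ (Fin d)) +
        ∑ i, x i • EuclideanSpace.single i (1 : ℝ) := by
      ext j
      simp [Finset.sum_apply, Pi.single_apply]
    rw [hx']
    set S := insert (0 : EuclideanSpace ℝ (Fin d))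
      (range fun i : Fin d => EuclideanSpace.single i (1 : ℝ)) with hS
    have hc : Convex ℝ (convexHull ℝ S) := convex_convexHull ℝ S
    have hz : (0 : EuclideanSpace ℝ (Fin d)) ∈ convexHull ℝ S :=
      subset_convexHull ℝ S (mem_insert _ _)
    have hs : ∀ i, EuclideanSpace.single i (1 : ℝ) ∈ convexHull ℝ S := fun i =>
      subset_convexHull ℝ S (mem_insert_of_mem _ (mem_range_self i))
    have := hc.sum_mem (t := (Finset.univ : Finset (Option (Fin d))))
      (w := fun o => o.elim (1 - ∑ i, x i) (fun i => x i))
      (z := fun o => o.elim (0 : EuclideanSpace ℝ (Fin d))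
        (fun i => EuclideanSpace.single i (1 : ℝ)))
      (by
        intro o _
        cases o with
        | none => simpa using h1
        | some i => simpa using h0 i)
      (by simp [Fintype.sum_option])
      (by
        intro o _
        cases o with
        | none => simpa using hz
        | some i => simpa using hs i)
    simpa [Fintype.sum_option] using this

end Claimed.Agent.R032
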