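import Mathlib
import Claimed.Agent.R032.SFun
import Claimed.Agent.R032.SimplexVol

set_option autoImplicit false

namespace Claimed.Agent.R032

open Set MeasureTheory
open scoped RealInnerProductSpace

abbrev EE (d : ℕ) := EuclideanSpace ℝ (Fin d)

/-- first block of coordinates -/
def fstB {a b : ℕ} (x : EE (a + b)) : Fin a → ℝ := fun i => x (Fin.castAdd b i)

/-- second block of coordinates -/
def sndB {a b : ℕ} (x : EE (a + b)) : Fin b → ℝ := fun i => x (Fin.natAdd a i)

/-- glue two blocks -/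
def mkB {a b : ℕ} (v : Fin a → ℝ) (w : Fin b → ℝ) : EE (a + b) := WithLp.toLp 2 (Fin.append v w)

/-- block product set -/
def blk (a b : ℕ) (A : Set (Fin a → ℝ)) (B : Set (Fin b → ℝ)) : Set (EE (a + b)) :=
  {x | fstB x ∈ A ∧ sndB x ∈ B}

@[simp] theorem fstB_mkB {a b : ℕ} (v : Fin a → ℝ) (w : Fin b → ℝ) : fstB (mkB v w) = v := by
  ext i; simp [fstB, mkB]

@[simp] theorem sndB_mkB {a b : ℕ} (v : Fin a → ℝ) (w : Fin b → ℝ) : sndB (mkB v w) = w := by
  ext i; simp [sndB, mkB]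

theorem fstB_add {a b : ℕ} (x y : EE (a + b)) : fstB (x + y) = fstB x + fstB y := by
  ext i; simp [fstB]

theorem sndB_add {a b : ℕ} (x y : EE (a + b)) : sndB (x + y) = sndB x + sndB y := by
  ext i; simp [sndB]

theorem fstB_sub {a b : ℕ} (x y : EE (a + b)) : fstB (x - y) = fstB x - fstB y := by
  ext i; simp [fstB]

theorem sndB_sub {a b : ℕ} (x y : EE (a + b)) : sndB (x - y) = sndB x - sndB y := by
  ext i; simp [sndB]

theorem fstB_smul {a b : ℕ} (r : ℝ) (x : EE (a + b)) : fstB (r • x) = r • fstB x := by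
  ext i; simp [fstB]

theorem sndB_smul {a b : ℕ} (r : ℝ) (x : EE (a + b)) : sndB (r • x) = r • sndB x := by
  ext i; simp [sndB]

theorem fstB_zero {a b : ℕ} : fstB (0 : EE (a + b)) = 0 := by
  ext i; simp [fstB]

theorem sndB_zero {a b : ℕ} : sndB (0 : EE (a + b)) = 0 := by
  ext i; simp [sndB]

theorem continuous_fstB {a b : ℕ} : Continuous (fstB : EE (a + b) → Fin a → ℝ) := by
  unfold fstB; fun_prop

theorem continuous_sndB {a b : ℕ} : Continuous (sndB : EE (a + b) → Fin b → ℝ) := by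
  unfold sndB; fun_prop

theorem inner_blk {a b : ℕ} (u x : EE (a + b)) :
    ⟪u, x⟫ = ∑ i, fstB u i * fstB x i + ∑ i, sndB u i * sndB x i := by
  rw [PiLp.inner_apply, Fin.sum_univ_add]
  simp [fstB, sndB, mul_comm]

theorem blk_mono {a b : ℕ} {A A' : Set (Fin a → ℝ)} {B B' : Set (Fin b → ℝ)}
    (hA : A ⊆ A') (hB : B ⊆ B') : blk a b A B ⊆ blk a b A' B' :=
  fun _ hx => ⟨hA hx.1, hB hx.2⟩

/-- The polar-type body cut out by the support function `c1 S + c2 S` is a product of zonotopes. -/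
theorem projbody_eq (a b : ℕ) (c1 c2 : ℝ) :
    {x : EE (a + b) | ∀ u : EE (a + b), ‖u‖ = 1 →
        ⟪u, x⟫ ≤ c1 * S (fstB u) + c2 * S (sndB u)} =
      blk a b {x | (∀ i, |x i| ≤ c1) ∧ ∀ i j, x i - x j ≤ c1}
        {x | (∀ i, |x i| ≤ c2) ∧ ∀ i j, x i - x j ≤ c2} := by
  ext x
  constructor
  · intro hx
    have hall : ∀ u : EE (a + b), ⟪u, x⟫ ≤ c1 * S (fstB u) + c2 * S (sndB u) := by
      intro u
      by_cases hu : u = 0
      · subst hu
        simp [fstB_zero, sndB_zero, S_zero]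
      · have hn : 0 < ‖u‖ := norm_pos_iff.2 hu
        have h1 := hx (‖u‖⁻¹ • u) (by rw [norm_smul, norm_inv, norm_norm]; field_simp)
        rw [fstB_smul, sndB_smul, S_smul _ (by positivity), S_smul _ (by positivity),
          real_inner_smul_left] at h1
        have h2 := mul_le_mul_of_nonneg_left h1 hn.le
        have e1 : ‖u‖ * (‖u‖⁻¹ * ⟪u, x⟫) = ⟪u, x⟫ := by field_simp
        have e2 : ‖u‖ * (c1 * (‖u‖⁻¹ * S (fstB u)) + c2 * (‖u‖⁻¹ * S (sndB u))) =
            c1 * S (fstB u) + c2 * S (sndB u) := by field_simp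
        rw [e1, e2] at h2
        exact h2
    constructor
    · show _ ∧ _
      rw [zon_iff]
      intro v
      have := hall (mkB v 0)
      rw [inner_blk] at this
      simpa [S_zero] using this
    · show _ ∧ _
      rw [zon_iff]
      intro v
      have := hall (mkB 0 v)
      rw [inner_blk] at this
      simpa [S_zero] using this
  · rintro ⟨h1, h2⟩ u -
    have h1' := (zon_iff c1 (fstB x)).1 h1 (fstB u)
    have h2' := (zon_iff c2 (sndB x)).1 h2 (sndB u)
    rw [inner_blk]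
    linarith

/-! ### moving corner simplices -/

theorem cs_add_mem {d : ℕ} (x v : Fin d → ℝ) (s t : ℝ) (hs : 0 ≤ s) (hst : s ≤ t)
    (hx : x ∈ cs d 0 1) :
    x + s • v ∈ cs d (fun i => -(t * max (-(v i)) 0)) (1 + t * max (∑ i, v i) 0) := by
  obtain ⟨h0, h1⟩ := hx
  constructor
  · intro i
    have a1 : -(v i) ≤ max (-(v i)) 0 := le_max_left _ _
    have a2 : 0 ≤ max (-(v i)) 0 := le_max_right _ _
    have a3 : 0 ≤ x i := h0 i
    have a4 : s * (-(v i)) ≤ t * max (-(v i)) 0 :=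
      le_trans (mul_le_mul_of_nonneg_left a1 hs) (mul_le_mul_of_nonneg_right hst a2)
    simp only [Pi.add_apply, Pi.smul_apply, smul_eq_mul]
    linarith
  · have a1 : ∑ i, v i ≤ max (∑ i, v i) 0 := le_max_left _ _
    have a2 : 0 ≤ max (∑ i, v i) 0 := le_max_right _ _
    have a4 : s * (∑ i, v i) ≤ t * max (∑ i, v i) 0 :=
      le_trans (mul_le_mul_of_nonneg_left a1 hs) (mul_le_mul_of_nonneg_right hst a2)
    simp only [Pi.add_apply, Pi.smul_apply, smul_eq_mul, Finset.sum_add_distrib, ← Finset.mul_sum]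
    linarith

theorem cs_inter_mem {d : ℕ} (x v : Fin d → ℝ) (t : ℝ) (ht : 0 ≤ t)
    (hx : x ∈ cs d 0 1) (hx' : x - t • v ∈ cs d 0 1) :
    x ∈ cs d (fun i => t * max (v i) 0) (1 - t * max (-(∑ i, v i)) 0) := by
  obtain ⟨h0, h1⟩ := hx
  obtain ⟨h0', h1'⟩ := hx'
  constructor
  · intro i
    have a3 : 0 ≤ x i := h0 i
    have a4 : 0 ≤ x i - t * v i := by simpa using h0' i
    show t * max (v i) 0 ≤ x i
    rw [mul_max_of_nonneg _ _ ht, mul_zero]
    exact max_le (by linarith) a3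
  · simp only [Pi.sub_apply, Pi.smul_apply, smul_eq_mul, Finset.sum_sub_distrib,
      ← Finset.mul_sum] at h1'
    rw [mul_max_of_nonneg _ _ ht, mul_zero]
    rcases le_total (t * -(∑ i, v i)) 0 with h | h
    · rw [max_eq_right h]; linarith
    · rw [max_eq_left h]; linarith

theorem volume_cs_up {d : ℕ} (v : Fin d → ℝ) (t : ℝ) (ht : 0 ≤ t) :
    volume (cs d (fun i => -(t * max (-(v i)) 0)) (1 + t * max (∑ i, v i) 0)) =
      ENNReal.ofReal ((1 + t * S v) ^ d / d.factorial) := by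
  have e : (1 + t * max (∑ i, v i) 0) - ∑ i, -(t * max (-(v i)) 0) = 1 + t * S v := by
    rw [S_eq, Finset.sum_neg_distrib, ← Finset.mul_sum]; ring
  have hS := S_nonneg v
  rw [volume_cs, e]
  have : 0 ≤ 1 + t * S v := by positivity
  linarith

theorem volume_cs_down {d : ℕ} (v : Fin d → ℝ) (t : ℝ) (h1 : t * S v ≤ 1) :
    volume (cs d (fun i => t * max (v i) 0) (1 - t * max (-(∑ i, v i)) 0)) =
      ENNReal.ofReal ((1 - t * S v) ^ d / d.factorial) := by
  have e : (1 - t * max (-(∑ i, v i)) 0) - ∑ i, t * max (v i) 0 = 1 - t * S v := by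
    unfold S; rw [← Finset.mul_sum]; ring
  rw [volume_cs, e]
  linarith

end Claimed.Agent.R032
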