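import Mathlib

set_option autoImplicit false

namespace Claimed.Agent.R032

open Set Filter Topology

theorem le_deriv_of_forall {f : ℝ → ℝ} {f' σ : ℝ} (hf : HasDerivAt f f' 0)
    (h : ∀ᶠ t in 𝓝[>] (0 : ℝ), f 0 + t * σ ≤ f t) : σ ≤ f' := by
  have h1 : Tendsto (slope f 0) (𝓝[>] 0) (𝓝 f') :=
    (hasDerivAt_iff_tendsto_slope.1 hf).mono_left (nhdsGT_le_nhdsNE 0)
  refine ge_of_tendsto h1 ?_
  filter_upwards [h, self_mem_nhdsWithin] with t ht ht0
  have ht0' : (0 : ℝ) < t := ht0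
  rw [slope_def_field, sub_zero, le_div_iff₀ ht0']
  linarith

theorem hasDerivAt_poly (V L1 L2 : ℝ) (a b : ℕ) :
    HasDerivAt (fun t : ℝ => V * ((1 + t * L1) ^ a * (1 + t * L2) ^ b))
      (V * (a * L1 + b * L2)) 0 := by
  have h1 : HasDerivAt (fun t : ℝ => 1 + t * L1) L1 0 := by
    simpa using ((hasDerivAt_id (0 : ℝ)).mul_const L1).const_add 1
  have h2 : HasDerivAt (fun t : ℝ => 1 + t * L2) L2 0 := by
    simpa using ((hasDerivAt_id (0 : ℝ)).mul_const L2).const_add 1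
  have h3 := ((h1.pow a).mul (h2.pow b)).const_mul V
  simpa using h3

theorem deriv_ub (V σ L1 L2 : ℝ) (a b : ℕ)
    (h : ∀ t : ℝ, 0 < t → V + t * σ ≤ V * ((1 + t * L1) ^ a * (1 + t * L2) ^ b)) :
    σ ≤ V * (a * L1 + b * L2) := by
  refine le_deriv_of_forall (hasDerivAt_poly V L1 L2 a b) ?_
  filter_upwards [self_mem_nhdsWithin] with t ht
  simpa using h t ht

theorem deriv_lb (V σ L1 L2 δ : ℝ) (a b : ℕ) (hδ : 0 < δ)
    (h : ∀ t : ℝ, 0 < t → t < δ → V - t * σ ≤ V * ((1 - t * L1) ^ a * (1 - t * L2) ^ b)) :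
    V * (a * L1 + b * L2) ≤ σ := by
  have h0 := hasDerivAt_poly V (-L1) (-L2) a b
  have h1 : -σ ≤ V * (a * (-L1) + b * (-L2)) := by
    refine le_deriv_of_forall h0 ?_
    filter_upwards [Ioo_mem_nhdsGT hδ] with t ht
    have := h t ht.1 ht.2
    simp only [zero_mul, add_zero, one_pow, mul_one, mul_neg, neg_zero]
    simp only [sub_eq_add_neg] at this
    linarith
  linarith

end Claimed.Agent.R032
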