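import Mathlib

set_option autoImplicit false
set_option linter.unusedSectionVars false
open Set MeasureTheory
open scoped RealInnerProductSpace

namespace Claimed.Agent.R032

variable {V : Type*} [NormedAddCommGroup V] [InnerProductSpace ℝ V] [MeasurableSpace V]
  [BorelSpace V] [FiniteDimensional ℝ V]

theorem measurePreserving_slab (u : V) (hu : ‖u‖ = 1) :
    MeasurePreserving (fun p : (ℝ ∙ u)ᗮ × ℝ => (p.1 : V) + p.2 • u)
      ((volume : Measure (ℝ ∙ u)ᗮ).prod (volume : Measure ℝ)) (volume : Measure V) := by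
  have h1 : MeasurePreserving
      (Prod.map (LinearIsometryEquiv.toSpanUnitSingleton u hu) (id : (ℝ ∙ u)ᗮ → (ℝ ∙ u)ᗮ))
      ((volume : Measure ℝ).prod (volume : Measure (ℝ ∙ u)ᗮ)) 
      ((volume : Measure (ℝ ∙ u)).prod (volume : Measure (ℝ ∙ u)ᗮ)) :=
    (LinearIsometryEquiv.measurePreserving _).prod (MeasurePreserving.id _)
  have h2 : MeasurePreserving (Prod.swap : (ℝ ∙ u)ᗮ × ℝ → ℝ × (ℝ ∙ u)ᗮ)
      ((volume : Measure (ℝ ∙ u)ᗮ).prod (volume : Measure ℝ)) 
      ((volume : Measure ℝ).prod (volume : Measure (ℝ ∙ u)ᗮ)) := Measure.measurePreserving_swap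
  have h3 := WithLp.volume_preserving_toLp (ℝ ∙ u) (ℝ ∙ u)ᗮ
  have h4 := ((ℝ ∙ u).orthogonalDecomposition.symm).measurePreserving
  have := h4.comp (h3.comp (h1.comp h2))
  have he : (fun p : (ℝ ∙ u)ᗮ × ℝ => (p.1 : V) + p.2 • u) =
    ⇑(ℝ ∙ u).orthogonalDecomposition.symm ∘
      WithLp.toLp 2 ∘ Prod.map (⇑(LinearIsometryEquiv.toSpanUnitSingleton u hu)) id ∘ Prod.swap := by
    funext p
    simp [add_comm]
  rw [he]
  exact this

theorem volume_eq_lintegral_fiber (u : V) (hu : ‖u‖ = 1) {A : Set V} (hA : MeasurableSet A) :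
    volume A = ∫⁻ y : (ℝ ∙ u)ᗮ, volume {r : ℝ | (y : V) + r • u ∈ A} := by
  have h := measurePreserving_slab u hu
  rw [← h.measure_preimage hA.nullMeasurableSet, Measure.prod_apply (h.measurable hA)]
  rfl

theorem proj_add_smul (u : V) (y : (ℝ ∙ u)ᗮ) (r : ℝ) :
    (ℝ ∙ u)ᗮ.orthogonalProjectionOnto ((y : V) + r • u) = y := by
  rw [map_add, map_smul, Submodule.orthogonalProjectionOnto_orthogonalComplement_singleton_eq_zero,
    smul_zero, add_zero, Submodule.orthogonalProjectionOnto_mem_subspace_eq_self]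

theorem proj_decomp (u : V) (hu : ‖u‖ = 1) (x : V) :
    (((ℝ ∙ u)ᗮ.orthogonalProjectionOnto x : (ℝ ∙ u)ᗮ) : V) + ⟪u, x⟫ • u = x := by
  rw [Submodule.coe_orthogonalProjectionOnto_apply, Submodule.starProjection_orthogonal_val,
    Submodule.starProjection_unit_singleton ℝ hu]
  simp

theorem real_lb {I : Set ℝ} (hI : I.OrdConnected) {t : ℝ} (ht : 0 ≤ t) :
    volume {r | r ∈ I ∧ r - t ∉ I} ≤ ENNReal.ofReal t := by
  refine (Real.volume_le_diam _).trans (Metric.ediam_le ?_)
  have key : ∀ x ∈ {r | r ∈ I ∧ r - t ∉ I}, ∀ y ∈ {r | r ∈ I ∧ r - t ∉ I}, x - y ≤ t := by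
    rintro x ⟨hx, hx'⟩ y ⟨hy, _⟩
    by_contra hlt
    rw [not_le] at hlt
    exact hx' (hI.out hy hx ⟨by linarith, by linarith⟩)
  intro x hx y hy
  rw [edist_dist, Real.dist_eq]
  apply ENNReal.ofReal_le_ofReal
  rw [abs_le]
  have h1 := key x hx y hy
  have h2 := key y hy x hx
  constructor <;> linarith

theorem real_ub {I J : Set ℝ} (hI : IsCompact I) (hne : I.Nonempty) {t : ℝ} (ht : 0 ≤ t)
    (h : ∀ r ∈ I, ∀ s ∈ Icc 0 t, r + s ∈ J) : volume I + ENNReal.ofReal t ≤ volume J := by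
  obtain ⟨b, hb, hbmax⟩ := hI.exists_isGreatest hne
  have hsub : I ∪ Ioc b (b + t) ⊆ J := by
    rintro r (hr | hr)
    · simpa using h r hr 0 ⟨le_rfl, ht⟩
    · have := h b hb (r - b) ⟨by linarith [hr.1], by linarith [hr.2]⟩
      simpa using this
  have hdisj : Disjoint I (Ioc b (b + t)) := by
    rw [Set.disjoint_left]
    intro r hr hr'
    exact absurd (hbmax hr) (not_le.mpr hr'.1)
  calc volume I + ENNReal.ofReal t = volume I + volume (Ioc b (b + t)) := by
        rw [Real.volume_Ioc]; congr 2; ring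
    _ = volume (I ∪ Ioc b (b + t)) := (measure_union hdisj measurableSet_Ioc).symm
    _ ≤ volume J := measure_mono hsub

theorem isCompact_fiber (u : V) (hu : ‖u‖ = 1) {K : Set V} (hK : IsCompact K) (y : V) :
    IsCompact {r : ℝ | y + r • u ∈ K} := by
  have hiso : Isometry (fun r : ℝ => y + r • u) := by
    apply Isometry.of_dist_eq
    intro a b
    rw [dist_add_left, dist_eq_norm, ← sub_smul, norm_smul, hu, mul_one, Real.dist_eq,
      Real.norm_eq_abs]
  exact hiso.isClosedEmbedding.isCompact_preimage hK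

theorem ordConnected_fiber (u : V) {K : Set V} (hc : Convex ℝ K) (y : V) :
    ({r : ℝ | y + r • u ∈ K}).OrdConnected := by
  have h := hc.affine_preimage (AffineMap.lineMap y (y + u))
  have he : (AffineMap.lineMap y (y + u) : ℝ →ᵃ[ℝ] V) ⁻¹' K = {r : ℝ | y + r • u ∈ K} := by
    ext r
    simp [AffineMap.lineMap_apply, add_comm]
  rw [he] at h
  exact h.ordConnected

theorem measurableSet_shadow (u : V) {K : Set V} (hK : IsCompact K) :
    MeasurableSet ((ℝ ∙ u)ᗮ.orthogonalProjectionOnto '' K) :=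
  (hK.image (ContinuousLinearMap.continuous _)).isClosed.measurableSet

theorem shadow_lb (u : V) (hu : ‖u‖ = 1) {K K₂ : Set V} (hK : IsCompact K) (hc : Convex ℝ K)
    {t : ℝ} (ht : 0 ≤ t) (hK₂ : MeasurableSet K₂) (h : ∀ x ∈ K, x - t • u ∈ K → x ∈ K₂) :
    volume K ≤ volume K₂ +
      ENNReal.ofReal t * volume ((ℝ ∙ u)ᗮ.orthogonalProjectionOnto '' K) := by
  rw [volume_eq_lintegral_fiber u hu hK.isClosed.measurableSet,
    volume_eq_lintegral_fiber u hu hK₂,
    ← lintegral_indicator_const (measurableSet_shadow u hK),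
    ← lintegral_add_right _ (measurable_const.indicator (measurableSet_shadow u hK))]
  apply lintegral_mono
  intro y
  have hsub : {r : ℝ | (y : V) + r • u ∈ K} ⊆ {r : ℝ | (y : V) + r • u ∈ K₂} ∪
      {r | r ∈ {r : ℝ | (y : V) + r • u ∈ K} ∧ r - t ∉ {r : ℝ | (y : V) + r • u ∈ K}} := by
    intro r hr
    by_cases h2 : (y : V) + (r - t) • u ∈ K
    · left
      apply h _ hr
      have : (y : V) + r • u - t • u = (y : V) + (r - t) • u := by
        rw [sub_smul]; abel
      rw [this]; exact h2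
    · right
      exact ⟨hr, h2⟩
  refine (measure_mono hsub).trans ((measure_union_le _ _).trans ?_)
  refine add_le_add le_rfl ?_
  by_cases hy : y ∈ (ℝ ∙ u)ᗮ.orthogonalProjectionOnto '' K
  · rw [indicator_of_mem hy]
    exact real_lb (ordConnected_fiber u hc y) ht
  · rw [indicator_of_notMem hy]
    have : {r | r ∈ {r : ℝ | (y : V) + r • u ∈ K} ∧ r - t ∉ {r : ℝ | (y : V) + r • u ∈ K}} = ∅ := by
      ext r
      simp only [mem_ofPred_eq, mem_empty_iff_false, iff_false, not_and]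
      intro hr
      exact absurd ⟨_, hr, proj_add_smul u y r⟩ hy
    rw [this]; simp

theorem shadow_ub (u : V) (hu : ‖u‖ = 1) {K K' : Set V} (hK : IsCompact K)
    {t : ℝ} (ht : 0 ≤ t) (hK' : MeasurableSet K') (h : ∀ x ∈ K, ∀ s ∈ Icc 0 t, x + s • u ∈ K') :
    volume K + ENNReal.ofReal t * volume ((ℝ ∙ u)ᗮ.orthogonalProjectionOnto '' K) ≤
      volume K' := by
  rw [volume_eq_lintegral_fiber u hu hK.isClosed.measurableSet,
    volume_eq_lintegral_fiber u hu hK',
    ← lintegral_indicator_const (measurableSet_shadow u hK),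
    ← lintegral_add_right _ (measurable_const.indicator (measurableSet_shadow u hK))]
  apply lintegral_mono
  intro y
  by_cases hy : y ∈ (ℝ ∙ u)ᗮ.orthogonalProjectionOnto '' K
  · simp only [indicator_of_mem hy]
    apply real_ub (isCompact_fiber u hu hK y) _ ht
    · intro r hr s hs
      have := h _ hr s hs
      simp only [mem_ofPred_eq]
      rw [add_smul, ← add_assoc]
      exact this
    · obtain ⟨x, hx, rfl⟩ := hy
      refine ⟨⟪u, x⟫, ?_⟩
      simp only [mem_ofPred_eq]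
      rw [proj_decomp u hu x]
      exact hx
  · simp only [indicator_of_notMem hy, add_zero]
    apply measure_mono
    intro r hr
    simpa using h _ hr 0 ⟨le_rfl, ht⟩

theorem hausdorff_bridge {n : ℕ} (hn : Module.finrank ℝ V = n + 1) (u : V) (hu : u ≠ 0)
    (P : Set V) :
    Measure.euclideanHausdorffMeasure n ((ℝ ∙ u)ᗮ.starProjection '' P) =
      (volume : Measure (ℝ ∙ u)ᗮ) ((ℝ ∙ u)ᗮ.orthogonalProjectionOnto '' P) := by
  have h1 : (ℝ ∙ u)ᗮ.starProjection '' P =
      Subtype.val '' ((ℝ ∙ u)ᗮ.orthogonalProjectionOnto '' P) := by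
    rw [Set.image_image]; rfl
  have h2 : Module.finrank ℝ (ℝ ∙ u)ᗮ = n := by
    have : Fact (Module.finrank ℝ V = n + 1) := ⟨hn⟩
    exact Submodule.finrank_orthogonal_span_singleton hu
  rw [h1, isometry_subtype_coe.euclideanHausdorffMeasure_image,
    ← InnerProductSpace.euclideanHausdorffMeasure_eq_volume, h2]

theorem shadow_congr {H₁ H₂ : Submodule ℝ V} [H₁.HasOrthogonalProjection]
    [H₂.HasOrthogonalProjection] (h : H₁ = H₂) (P : Set V) :
    (volume : Measure H₁) (H₁.orthogonalProjectionOnto '' P) =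
      (volume : Measure H₂) (H₂.orthogonalProjectionOnto '' P) := by
  subst h
  rfl

theorem shadow_smul (u : V) {c : ℝ} (hc : c ≠ 0) (P : Set V) :
    (volume : Measure (ℝ ∙ (c • u))ᗮ) ((ℝ ∙ (c • u))ᗮ.orthogonalProjectionOnto '' P) =
      (volume : Measure (ℝ ∙ u)ᗮ) ((ℝ ∙ u)ᗮ.orthogonalProjectionOnto '' P) := by
  have h : (ℝ ∙ (c • u)) = (ℝ ∙ u) := Submodule.span_singleton_smul_eq (IsUnit.mk0 c hc) u
  exact shadow_congr (by rw [h]) P

theorem shadow_lt_top (u : V) {K : Set V} (hK : IsCompact K) :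
    (volume : Measure (ℝ ∙ u)ᗮ) ((ℝ ∙ u)ᗮ.orthogonalProjectionOnto '' K) < ⊤ :=
  (hK.image (ContinuousLinearMap.continuous _)).measure_lt_top

end Claimed.Agent.R032
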