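import Mathlib

set_option autoImplicit false

namespace Claimed.Agent.R032

open MeasureTheory Set

noncomputable def blockEquiv (a b : ℕ) : (Fin (a + b) → ℝ) ≃ᵐ (Fin a → ℝ) × (Fin b → ℝ) :=
  (MeasurableEquiv.piCongrLeft (fun _ : Fin (a + b) => ℝ) finSumFinEquiv).symm.trans
    (MeasurableEquiv.sumPiEquivProdPi (fun _ : Fin a ⊕ Fin b => ℝ))

theorem blockEquiv_apply (a b : ℕ) (x : Fin (a + b) → ℝ) :
    blockEquiv a b x = (fun i => x (Fin.castAdd b i), fun i => x (Fin.natAdd a i)) := by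
  have h : ∀ s : Fin a ⊕ Fin b,
      (MeasurableEquiv.piCongrLeft (fun _ : Fin (a + b) => ℝ) finSumFinEquiv).symm x s
        = x (finSumFinEquiv s) := by
    intro s
    rfl
  ext i
  · simp [blockEquiv, MeasurableEquiv.coe_sumPiEquivProdPi, Equiv.sumPiEquivProdPi, h]
  · simp [blockEquiv, MeasurableEquiv.coe_sumPiEquivProdPi, Equiv.sumPiEquivProdPi, h]

theorem measurePreserving_blockEquiv (a b : ℕ) :
    MeasurePreserving (blockEquiv a b) volume volume :=
  (volume_measurePreserving_piCongrLeft (fun _ : Fin (a + b) => ℝ) finSumFinEquiv).symm.trans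
    (volume_measurePreserving_sumPiEquivProdPi (fun _ : Fin a ⊕ Fin b => ℝ))

theorem volume_block (a b : ℕ) (A : Set (Fin a → ℝ)) (B : Set (Fin b → ℝ)) :
    volume {x : Fin (a + b) → ℝ | (fun i => x (Fin.castAdd b i)) ∈ A ∧
      (fun i => x (Fin.natAdd a i)) ∈ B} = volume A * volume B := by
  have h : {x : Fin (a + b) → ℝ | (fun i => x (Fin.castAdd b i)) ∈ A ∧
      (fun i => x (Fin.natAdd a i)) ∈ B} = blockEquiv a b ⁻¹' (A ×ˢ B) := by
    ext x
    simp [blockEquiv_apply]
  rw [h, (measurePreserving_blockEquiv a b).measure_preimage_equiv, Measure.volume_eq_prod,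
    Measure.prod_prod]

theorem volume_euc (n : ℕ) (S : Set (Fin n → ℝ)) :
    volume {x : EuclideanSpace ℝ (Fin n) | (fun i => x i) ∈ S} = volume S := by
  have h : {x : EuclideanSpace ℝ (Fin n) | (fun i => x i) ∈ S}
      = (MeasurableEquiv.toLp 2 (Fin n → ℝ)).symm ⁻¹' S := by
    ext x
    rfl
  rw [h, (EuclideanSpace.volume_preserving_symm_measurableEquiv_toLp (Fin n)).measure_preimage_equiv]

end Claimed.Agent.R032
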