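import Mathlib
import Claimed.Agent.R032.Blk
import Claimed.Agent.R032.Deriv
import Claimed.Agent.R032.ProdVol
import Claimed.Agent.R032.Fubini

set_option autoImplicit false

namespace Claimed.Agent.R032

open Set MeasureTheory
open scoped RealInnerProductSpace ENNReal

/-- the volume of the orthogonal projection of `K` along `u` -/
noncomputable def shadow {d : ℕ} (K : Set (EE d)) (u : EE d) : ℝ≥0∞ :=
  (volume : Measure (ℝ ∙ u)ᗮ) ((ℝ ∙ u)ᗮ.orthogonalProjectionOnto '' K)

theorem volume_blk (a b : ℕ) (A : Set (Fin a → ℝ)) (B : Set (Fin b → ℝ)) :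
    volume (blk a b A B) = volume A * volume B := by
  rw [← volume_block a b A B, ← volume_euc]
  rfl

theorem isClosed_blk {a b : ℕ} {A : Set (Fin a → ℝ)} {B : Set (Fin b → ℝ)}
    (hA : IsClosed A) (hB : IsClosed B) : IsClosed (blk a b A B) :=
  (hA.preimage continuous_fstB).inter (hB.preimage continuous_sndB)

/-- the product of two standard corner simplices -/
def PP (a b : ℕ) : Set (EE (a + b)) := blk a b (cs a 0 1) (cs b 0 1)

theorem volume_cs_std (d : ℕ) : volume (cs d 0 1) = ENNReal.ofReal (1 / d.factorial) := by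
  rw [volume_cs d 0 1 (by simp)]
  simp

theorem volume_PP (a b : ℕ) :
    volume (PP a b) = ENNReal.ofReal (1 / (a.factorial * b.factorial)) := by
  rw [PP, volume_blk, volume_cs_std, volume_cs_std, ← ENNReal.ofReal_mul (by positivity)]
  congr 1
  field_simp

theorem shadow_PP_le (a b : ℕ) (hK : IsCompact (PP a b))
    (u : EE (a + b)) (hu : ‖u‖ = 1) (t : ℝ) (ht : 0 ≤ t) :
    volume (PP a b) + ENNReal.ofReal t * shadow (PP a b) u ≤
      ENNReal.ofReal (1 / (a.factorial * b.factorial) *
        ((1 + t * S (fstB u)) ^ a * (1 + t * S (sndB u)) ^ b)) := by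
  have h := shadow_ub u hu (K := PP a b)
    (K' := blk a b (cs a (fun i => -(t * max (-(fstB u i)) 0)) (1 + t * max (∑ i, fstB u i) 0))
      (cs b (fun i => -(t * max (-(sndB u i)) 0)) (1 + t * max (∑ i, sndB u i) 0)))
    hK ht (isClosed_blk (isClosed_cs _ _ _) (isClosed_cs _ _ _)).measurableSet (by
      intro x hx s hs
      refine ⟨?_, ?_⟩
      · rw [fstB_add, fstB_smul]
        exact cs_add_mem _ _ s t hs.1 hs.2 hx.1
      · rw [sndB_add, sndB_smul]
        exact cs_add_mem _ _ s t hs.1 hs.2 hx.2)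
  rw [volume_blk, volume_cs_up _ t ht, volume_cs_up _ t ht] at h
  have h1 := S_nonneg (fstB u)
  have h2 := S_nonneg (sndB u)
  rw [← ENNReal.ofReal_mul (by positivity)] at h
  refine h.trans (le_of_eq ?_)
  congr 1
  field_simp

theorem shadow_PP_ge (a b : ℕ) (hK : IsCompact (PP a b))
    (hc : Convex ℝ (PP a b))
    (u : EE (a + b)) (hu : ‖u‖ = 1) (t : ℝ) (ht : 0 ≤ t) (h1 : t * S (fstB u) ≤ 1)
    (h2 : t * S (sndB u) ≤ 1) :
    volume (PP a b) ≤
      ENNReal.ofReal (1 / (a.factorial * b.factorial) *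
        ((1 - t * S (fstB u)) ^ a * (1 - t * S (sndB u)) ^ b)) +
      ENNReal.ofReal t * shadow (PP a b) u := by
  have h := shadow_lb u hu (K := PP a b)
    (K₂ := blk a b (cs a (fun i => t * max (fstB u i) 0) (1 - t * max (-(∑ i, fstB u i)) 0))
        (cs b (fun i => t * max (sndB u i) 0) (1 - t * max (-(∑ i, sndB u i)) 0)))
    hK hc ht (isClosed_blk (isClosed_cs _ _ _) (isClosed_cs _ _ _)).measurableSet (by
      intro x hx hx'
      refine ⟨?_, ?_⟩
      · have := hx'.1
        rw [fstB_sub, fstB_smul] at this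
        exact cs_inter_mem _ _ t ht hx.1 this
      · have := hx'.2
        rw [sndB_sub, sndB_smul] at this
        exact cs_inter_mem _ _ t ht hx.2 this)
  rw [volume_blk, volume_cs_down _ t h1, volume_cs_down _ t h2] at h
  have e1 : 0 ≤ 1 - t * S (fstB u) := by linarith
  have e2 : 0 ≤ 1 - t * S (sndB u) := by linarith
  rw [← ENNReal.ofReal_mul (by positivity)] at h
  refine h.trans (add_le_add_left (le_of_eq ?_) _)
  congr 1
  field_simp

/-- The shadow formula for a product of two corner simplices. -/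
theorem shadow_PP (a b : ℕ)
    (hK : IsCompact (PP a b)) (hc : Convex ℝ (PP a b)) (u : EE (a + b)) (hu : ‖u‖ = 1) :
    (shadow (PP a b) u).toReal =
      1 / (a.factorial * b.factorial) * (a * S (fstB u) + b * S (sndB u)) := by
  have hfin : shadow (PP a b) u ≠ ∞ := (shadow_lt_top u hK).ne
  set σ := (shadow (PP a b) u).toReal with hσ
  have hσ' : shadow (PP a b) u = ENNReal.ofReal σ := (ENNReal.ofReal_toReal hfin).symm
  have hσ0 : 0 ≤ σ := ENNReal.toReal_nonneg
  have h1 := S_nonneg (fstB u)
  have h2 := S_nonneg (sndB u)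
  set V : ℝ := 1 / (a.factorial * b.factorial) with hV
  have hV0 : 0 ≤ V := by positivity
  apply le_antisymm
  · apply deriv_ub
    intro t ht
    have h := shadow_PP_le a b hK u hu t ht.le
    rw [volume_PP, hσ', ← ENNReal.ofReal_mul ht.le, ← ENNReal.ofReal_add (by positivity)
      (by positivity)] at h
    exact (ENNReal.ofReal_le_ofReal_iff (by positivity)).1 h
  · apply deriv_lb V σ _ _ (1 / (1 + S (fstB u) + S (sndB u))) a b (by positivity)
    intro t ht ht'
    rw [lt_div_iff₀ (by positivity)] at ht'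
    have e1 : t * S (fstB u) ≤ 1 := by nlinarith
    have e2 : t * S (sndB u) ≤ 1 := by nlinarith
    have e1' : 0 ≤ 1 - t * S (fstB u) := by linarith
    have e2' : 0 ≤ 1 - t * S (sndB u) := by linarith
    have h := shadow_PP_ge a b hK hc u hu t ht.le e1 e2
    rw [volume_PP, hσ', ← ENNReal.ofReal_mul ht.le, ← ENNReal.ofReal_add (by positivity)
      (by positivity)] at h
    have := (ENNReal.ofReal_le_ofReal_iff (by positivity)).1 h
    linarith

end Claimed.Agent.R032
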