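import Mathlib
import Claimed.Agent.R032.Shadow

set_option autoImplicit false

namespace Claimed.Agent.R032

open Set MeasureTheory
open scoped RealInnerProductSpace

theorem mkB_fstB_sndB {a b : ℕ} (x : EE (a + b)) : mkB (fstB x) (sndB x) = x := by
  ext i
  refine Fin.addCases (fun j => ?_) (fun j => ?_) i
  · simp [mkB, fstB]
  · simp [mkB, sndB]

theorem continuous_mkB {a b : ℕ} :
    Continuous (fun p : (Fin a → ℝ) × (Fin b → ℝ) => (mkB p.1 p.2 : EE (a + b))) := by
  unfold mkB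
  refine (PiLp.continuous_toLp 2 _).comp ?_
  refine continuous_pi fun i => ?_
  refine Fin.addCases (fun j => ?_) (fun j => ?_) i
  · simp only [Fin.append_left]
    fun_prop
  · simp only [Fin.append_right]
    fun_prop

theorem blk_eq_image (a b : ℕ) (A : Set (Fin a → ℝ)) (B : Set (Fin b → ℝ)) :
    blk a b A B = (fun p : (Fin a → ℝ) × (Fin b → ℝ) => (mkB p.1 p.2 : EE (a + b))) '' (A ×ˢ B) := by
  ext x
  constructor
  · intro hx
    exact ⟨(fstB x, sndB x), ⟨hx.1, hx.2⟩, mkB_fstB_sndB x⟩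
  · rintro ⟨p, hp, rfl⟩
    exact ⟨by simpa using hp.1, by simpa using hp.2⟩

theorem isCompact_cs01 (d : ℕ) : IsCompact (cs d 0 1) := by
  refine (isCompact_Icc (a := (0 : Fin d → ℝ)) (b := 1)).of_isClosed_subset (isClosed_cs d 0 1) ?_
  intro x hx
  refine ⟨fun i => hx.1 i, fun i => ?_⟩
  have h : x i ≤ ∑ j, x j := Finset.single_le_sum (fun j _ => hx.1 j) (Finset.mem_univ i)
  exact h.trans hx.2

theorem convex_cs (d : ℕ) (al : Fin d → ℝ) (be : ℝ) : Convex ℝ (cs d al be) := by
  intro x hx y hy p q hp hq hpq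
  refine ⟨fun i => ?_, ?_⟩
  · have h1 := hx.1 i
    have h2 := hy.1 i
    simp only [Pi.add_apply, Pi.smul_apply, smul_eq_mul]
    have : al i = p * al i + q * al i := by rw [← add_mul, hpq, one_mul]
    rw [this]
    exact add_le_add (mul_le_mul_of_nonneg_left h1 hp) (mul_le_mul_of_nonneg_left h2 hq)
  · simp only [Pi.add_apply, Pi.smul_apply, smul_eq_mul, Finset.sum_add_distrib, ← Finset.mul_sum]
    have : be = p * be + q * be := by rw [← add_mul, hpq, one_mul]
    rw [this]
    exact add_le_add (mul_le_mul_of_nonneg_left hx.2 hp) (mul_le_mul_of_nonneg_left hy.2 hq)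

theorem isCompact_blk {a b : ℕ} {A : Set (Fin a → ℝ)} {B : Set (Fin b → ℝ)}
    (hA : IsCompact A) (hB : IsCompact B) : IsCompact (blk a b A B) := by
  rw [blk_eq_image]
  exact (hA.prod hB).image continuous_mkB

theorem convex_blk {a b : ℕ} {A : Set (Fin a → ℝ)} {B : Set (Fin b → ℝ)}
    (hA : Convex ℝ A) (hB : Convex ℝ B) : Convex ℝ (blk a b A B) := by
  intro x hx y hy p q hp hq hpq
  refine ⟨?_, ?_⟩
  · rw [fstB_add, fstB_smul, fstB_smul]
    exact hA hx.1 hy.1 hp hq hpq
  · rw [sndB_add, sndB_smul, sndB_smul]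
    exact hB hx.2 hy.2 hp hq hpq

theorem measurableSet_blk {a b : ℕ} {A : Set (Fin a → ℝ)} {B : Set (Fin b → ℝ)}
    (hA : MeasurableSet A) (hB : MeasurableSet B) : MeasurableSet (blk a b A B) :=
  (continuous_fstB.measurable hA).inter (continuous_sndB.measurable hB)

theorem isOpen_blk {a b : ℕ} {A : Set (Fin a → ℝ)} {B : Set (Fin b → ℝ)}
    (hA : IsOpen A) (hB : IsOpen B) : IsOpen (blk a b A B) :=
  (hA.preimage continuous_fstB).inter (hB.preimage continuous_sndB)

theorem isCompact_PP (a b : ℕ) : IsCompact (PP a b) :=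
  isCompact_blk (isCompact_cs01 a) (isCompact_cs01 b)

theorem convex_PP (a b : ℕ) : Convex ℝ (PP a b) :=
  convex_blk (convex_cs a 0 1) (convex_cs b 0 1)

theorem isOpen_cs_int (d : ℕ) : IsOpen {x : Fin d → ℝ | (∀ i, 0 < x i) ∧ ∑ i, x i < 1} := by
  have h1 : IsOpen {x : Fin d → ℝ | ∀ i, 0 < x i} := by
    simp only [ofPred_forall]
    exact isOpen_iInter_of_finite fun i => isOpen_lt continuous_const (continuous_apply i)
  have h2 : IsOpen {x : Fin d → ℝ | ∑ i, x i < 1} :=
    isOpen_lt (continuous_finsetSum _ fun i _ => continuous_apply i) continuous_const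
  exact h1.inter h2

theorem cs_int_mem (d : ℕ) :
    (fun _ => 1 / ((d : ℝ) + 1)) ∈ {x : Fin d → ℝ | (∀ i, 0 < x i) ∧ ∑ i, x i < 1} := by
  refine ⟨fun i => by positivity, ?_⟩
  simp only [Finset.sum_const, Finset.card_univ, Fintype.card_fin, nsmul_eq_mul]
  rw [mul_one_div, div_lt_one (by positivity)]
  linarith

theorem interior_PP_nonempty (a b : ℕ) : (interior (PP a b)).Nonempty := by
  have hsub : blk a b {x : Fin a → ℝ | (∀ i, 0 < x i) ∧ ∑ i, x i < 1}
      {x : Fin b → ℝ | (∀ i, 0 < x i) ∧ ∑ i, x i < 1} ⊆ PP a b :=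
    blk_mono (fun x hx => ⟨fun i => (hx.1 i).le, hx.2.le⟩)
      (fun x hx => ⟨fun i => (hx.1 i).le, hx.2.le⟩)
  refine ⟨mkB (fun _ => 1 / ((a : ℝ) + 1)) (fun _ => 1 / ((b : ℝ) + 1)), ?_⟩
  refine interior_maximal hsub (isOpen_blk (isOpen_cs_int a) (isOpen_cs_int b)) ?_
  refine ⟨?_, ?_⟩
  · rw [fstB_mkB]; exact cs_int_mem a
  · rw [sndB_mkB]; exact cs_int_mem b

/-- identification with the product of two convex-hull simplices -/
theorem PP_eq_prod (a b : ℕ) :
    PP a b = {x : EE (a + b) |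
      (WithLp.toLp 2 (fun i : Fin a => x (Fin.castAdd b i)) : EE a) ∈
        convexHull ℝ (insert 0 (range fun i : Fin a => EuclideanSpace.single i (1 : ℝ))) ∧
      (WithLp.toLp 2 (fun i : Fin b => x (Fin.natAdd a i)) : EE b) ∈
        convexHull ℝ (insert 0 (range fun i : Fin b => EuclideanSpace.single i (1 : ℝ)))} := by
  rw [simplex_eq, simplex_eq]
  rfl

/-- identification of the single convex-hull simplex with `PP d 0` -/
theorem PP_zero_right (d : ℕ) :
    PP d 0 = (convexHull ℝ (insert 0 (range fun i : Fin d => EuclideanSpace.single i (1 : ℝ))) :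
      Set (EE d)) := by
  rw [simplex_eq]
  ext x
  constructor
  · intro hx
    exact hx.1
  · intro hx
    refine ⟨hx, fun i => i.elim0, by simp⟩

end Claimed.Agent.R032
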