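import Mathlib
import Claimed.Agent.R032.Shadow

set_option autoImplicit false
open Set MeasureTheory
open scoped RealInnerProductSpace

namespace Claimed.Agent.R032.H32

theorem convex_cs (d : ℕ) (al : Fin d → ℝ) (be : ℝ) : Convex ℝ (cs d al be) := by
  intro x hx y hy s t hs ht hst
  refine ⟨fun i => ?_, ?_⟩
  · have h1 := hx.1 i
    have h2 := hy.1 i
    simp only [Pi.add_apply, Pi.smul_apply, smul_eq_mul]
    have : al i = s * al i + t * al i := by rw [← add_mul, hst, one_mul]
    rw [this]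
    exact add_le_add (mul_le_mul_of_nonneg_left h1 hs) (mul_le_mul_of_nonneg_left h2 ht)
  · simp only [Pi.add_apply, Pi.smul_apply, smul_eq_mul, Finset.sum_add_distrib,
      ← Finset.mul_sum]
    have h1 := hx.2
    have h2 := hy.2
    have : be = s * be + t * be := by rw [← add_mul, hst, one_mul]
    rw [this]
    exact add_le_add (mul_le_mul_of_nonneg_left h1 hs) (mul_le_mul_of_nonneg_left h2 ht)

theorem convex_blk {a b : ℕ} {A : Set (Fin a → ℝ)} {B : Set (Fin b → ℝ)}
    (hA : Convex ℝ A) (hB : Convex ℝ B) : Convex ℝ (blk a b A B) := by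
  intro x hx y hy s t hs ht hst
  refine ⟨?_, ?_⟩
  · rw [fstB_add, fstB_smul, fstB_smul]
    exact hA hx.1 hy.1 hs ht hst
  · rw [sndB_add, sndB_smul, sndB_smul]
    exact hB hx.2 hy.2 hs ht hst

theorem cs_le_one {d : ℕ} {x : Fin d → ℝ} (hx : x ∈ cs d 0 1) (i : Fin d) :
    0 ≤ x i ∧ x i ≤ 1 :=
  ⟨hx.1 i, (Finset.single_le_sum (f := x) (fun j _ => hx.1 j) (Finset.mem_univ i)).trans hx.2⟩

theorem isCompact_PP (a b : ℕ) : IsCompact (PP a b) := by
  apply Metric.isCompact_of_isClosed_isBounded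
  · exact isClosed_blk (isClosed_cs _ _ _) (isClosed_cs _ _ _)
  · rw [isBounded_iff_forall_norm_le]
    refine ⟨√(a + b : ℕ), ?_⟩
    intro x hx
    rw [EuclideanSpace.norm_eq]
    apply Real.sqrt_le_sqrt
    have hall : ∀ i, ‖x i‖ ^ 2 ≤ 1 := by
      intro i
      have hi : 0 ≤ x i ∧ x i ≤ 1 := by
        refine Fin.addCases (fun j => ?_) (fun j => ?_) i
        · exact cs_le_one hx.1 j
        · exact cs_le_one hx.2 j
      rw [Real.norm_eq_abs, sq_abs]
      nlinarith [hi.1, hi.2]
    calc ∑ i, ‖x i‖ ^ 2 ≤ ∑ _i : Fin (a + b), (1 : ℝ) := Finset.sum_le_sum fun i _ => hall i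
      _ = ((a + b : ℕ) : ℝ) := by simp

theorem convex_PP (a b : ℕ) : Convex ℝ (PP a b) :=
  convex_blk (convex_cs _ _ _) (convex_cs _ _ _)

theorem interior_PP (a b : ℕ) : (interior (PP a b)).Nonempty := by
  set U : Set (EE (a + b)) := {x | (∀ i, 0 < x i) ∧ ∑ i, fstB x i < 1 ∧ ∑ i, sndB x i < 1} with hU
  have hopen : IsOpen U := by
    have h1 : IsOpen {x : EE (a + b) | ∀ i, 0 < x i} := by
      simp only [ofPred_forall]
      exact isOpen_iInter_of_finite fun i => isOpen_lt continuous_const (by fun_prop)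
    have h2 : IsOpen {x : EE (a + b) | ∑ i, fstB x i < 1} :=
      isOpen_lt (continuous_finsetSum _ fun i _ => (continuous_apply i).comp continuous_fstB)
        continuous_const
    have h3 : IsOpen {x : EE (a + b) | ∑ i, sndB x i < 1} :=
      isOpen_lt (continuous_finsetSum _ fun i _ => (continuous_apply i).comp continuous_sndB)
        continuous_const
    exact h1.inter (h2.inter h3)
  have hsub : U ⊆ PP a b := by
    rintro x ⟨h1, h2, h3⟩
    exact ⟨⟨fun i => (h1 _).le, h2.le⟩, ⟨fun i => (h1 _).le, h3.le⟩⟩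
  refine ⟨WithLp.toLp 2 (fun _ => 1 / ((a : ℝ) + b + 1)), interior_maximal hsub hopen ?_⟩
  refine ⟨fun i => by simp only; positivity, ?_, ?_⟩
  · simp only [fstB, Finset.sum_const, Finset.card_univ, Fintype.card_fin, nsmul_eq_mul]
    rw [mul_one_div, div_lt_one (by positivity)]
    have : (0 : ℝ) ≤ b := by positivity
    linarith
  · simp only [sndB, Finset.sum_const, Finset.card_univ, Fintype.card_fin, nsmul_eq_mul]
    rw [mul_one_div, div_lt_one (by positivity)]
    have : (0 : ℝ) ≤ a := by positivity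
    linarith

end Claimed.Agent.R032.H32
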