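import Mathlib

set_option autoImplicit false

namespace Claimed.Agent.R032

open MeasureTheory Set

def zon (d : ℕ) (c : ℝ) : Set (Fin d → ℝ) :=
  {x | (∀ i, |x i| ≤ c) ∧ ∀ i j, x i - x j ≤ c}

def zval {d : ℕ} (o : Option (Fin d)) (x : Fin d → ℝ) : ℝ := o.elim 0 x

@[simp] theorem zval_none {d : ℕ} (x : Fin d → ℝ) : zval none x = 0 := rfl
@[simp] theorem zval_some {d : ℕ} (k : Fin d) (x : Fin d → ℝ) : zval (some k) x = x k := rfl

def zpiece (d : ℕ) (c : ℝ) (o : Option (Fin d)) : Set (Fin d → ℝ) :=
  {x | ∀ p : Option (Fin d), zval p x - zval o x ∈ Icc 0 c}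

theorem zon_eq_iUnion (d : ℕ) (c : ℝ) (hc : 0 ≤ c) : zon d c = ⋃ o, zpiece d c o := by
  ext x
  simp only [zon, zpiece, mem_ofPred_eq, mem_iUnion, mem_Icc]
  constructor
  · rintro ⟨h1, h2⟩
    obtain ⟨o, -, ho⟩ := Finset.exists_min_image (Finset.univ : Finset (Option (Fin d)))
      (fun o => zval o x) ⟨none, Finset.mem_univ _⟩
    refine ⟨o, fun p => ⟨sub_nonneg.2 (ho p (Finset.mem_univ _)), ?_⟩⟩
    rcases p with _ | i <;> rcases o with _ | k
    · simpa using hc
    · simpa using (neg_le_abs (x k)).trans (h1 k)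
    · simpa using (le_abs_self (x i)).trans (h1 i)
    · simpa using h2 i k
  · rintro ⟨o, ho⟩
    refine ⟨fun i => ?_, fun i j => ?_⟩
    · have a := ho (some i)
      have b := ho none
      simp only [zval_some, zval_none] at a b
      rw [abs_le]
      constructor <;> linarith [a.1, a.2, b.1, b.2]
    · have a := ho (some i)
      have b := ho (some j)
      simp only [zval_some] at a b
      linarith [a.1, a.2, b.1, b.2]

theorem zpiece_none (d : ℕ) (c : ℝ) (hc : 0 ≤ c) :
    zpiece d c none = Icc (0 : Fin d → ℝ) (fun _ => c) := by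
  ext x
  simp only [zpiece, mem_ofPred_eq, zval_none, sub_zero, mem_Icc, Pi.le_def, Pi.zero_apply]
  constructor
  · intro h
    exact ⟨fun i => (h (some i)).1, fun i => (h (some i)).2⟩
  · rintro ⟨h1, h2⟩ p
    rcases p with _ | i
    · simpa using hc
    · exact ⟨h1 i, h2 i⟩

theorem volume_zpiece_none (d : ℕ) (c : ℝ) (hc : 0 ≤ c) :
    volume (zpiece d c none) = ENNReal.ofReal (c ^ d) := by
  rw [zpiece_none d c hc, Real.volume_Icc_pi]
  simp [ENNReal.ofReal_pow hc]

noncomputable def zmap {d : ℕ} (k : Fin d) : (Fin d → ℝ) →ₗ[ℝ] (Fin d → ℝ) :=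
  LinearMap.transvection (-(LinearMap.proj k : (Fin d → ℝ) →ₗ[ℝ] ℝ))
    ((fun _ => 1) + Pi.single k 1)

theorem zmap_apply {d : ℕ} (k : Fin d) (x : Fin d → ℝ) (i : Fin d) :
    zmap k x i = if i = k then - x k else x i - x k := by
  simp only [zmap, LinearMap.transvection.apply, LinearMap.neg_apply, LinearMap.proj_apply,
    Pi.add_apply, Pi.smul_apply, smul_eq_mul, Pi.single_apply]
  split_ifs with h
  · subst h; ring
  · ring

theorem zmap_det {d : ℕ} (k : Fin d) : LinearMap.det (zmap k) = -1 := by
  simp only [zmap, LinearMap.transvection.det, LinearMap.neg_apply, LinearMap.proj_apply,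
    Pi.add_apply, Pi.single_eq_same]
  norm_num

theorem zpiece_some (d : ℕ) (c : ℝ) (hc : 0 ≤ c) (k : Fin d) :
    zpiece d c (some k) = zmap k ⁻¹' (zpiece d c none) := by
  ext x
  rw [zpiece_none d c hc]
  simp only [zpiece, mem_ofPred_eq, zval_some, mem_preimage, mem_Icc, Pi.le_def, Pi.zero_apply,
    zmap_apply]
  constructor
  · intro h
    constructor
    · intro i
      split_ifs with hi
      · simpa using (h none).1
      · exact (h (some i)).1
    · intro i
      split_ifs with hi
      · simpa using (h none).2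
      · exact (h (some i)).2
  · rintro ⟨h1, h2⟩ p
    rcases p with _ | i
    · have a := h1 k
      have b := h2 k
      simp only [if_true] at a b
      simp only [zval_none, zero_sub]
      exact ⟨a, b⟩
    · by_cases hi : i = k
      · subst hi; simpa using hc
      · have a := h1 i
        have b := h2 i
        simp only [hi, if_false] at a b
        exact ⟨a, b⟩

theorem volume_zpiece (d : ℕ) (c : ℝ) (hc : 0 ≤ c) (o : Option (Fin d)) :
    volume (zpiece d c o) = ENNReal.ofReal (c ^ d) := by
  rcases o with _ | k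
  · exact volume_zpiece_none d c hc
  · rw [zpiece_some d c hc k, Measure.addHaar_preimage_linearMap _ (by rw [zmap_det]; norm_num),
      zmap_det, volume_zpiece_none d c hc]
    norm_num

theorem measurableSet_zpiece (d : ℕ) (c : ℝ) (hc : 0 ≤ c) (o : Option (Fin d)) :
    MeasurableSet (zpiece d c o) := by
  rcases o with _ | k
  · rw [zpiece_none d c hc]; exact measurableSet_Icc
  · rw [zpiece_some d c hc k, zpiece_none d c hc]
    exact (zmap k).continuous_of_finiteDimensional.measurable measurableSet_Icc

theorem volume_zval_eq {d : ℕ} (o p : Option (Fin d)) (h : o ≠ p) :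
    volume {x : Fin d → ℝ | zval o x = zval p x} = 0 := by
  have key : ∀ f : (Fin d → ℝ) →ₗ[ℝ] ℝ, (∃ x, f x ≠ 0) →
      volume {x : Fin d → ℝ | f x = 0} = 0 := by
    intro f ⟨x, hx⟩
    have : LinearMap.ker f ≠ ⊤ := by
      intro h
      apply hx
      have : x ∈ LinearMap.ker f := by rw [h]; trivial
      simpa using this
    have h2 := Measure.addHaar_submodule volume (LinearMap.ker f) this
    convert h2 using 2
    ext y
    simp
  rcases o with _ | k <;> rcases p with _ | l
  · exact absurd rfl h
  · have := key (LinearMap.proj l) ⟨Pi.single l 1, by simp⟩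
    convert this using 2
    ext y
    simp [eq_comm]
  · have := key (LinearMap.proj k) ⟨Pi.single k 1, by simp⟩
    convert this using 2
    ext y
    simp
  · have hkl : k ≠ l := fun e => h (by rw [e])
    have := key ((LinearMap.proj k : (Fin d → ℝ) →ₗ[ℝ] ℝ) - LinearMap.proj l)
      ⟨Pi.single k 1, by
        rw [LinearMap.sub_apply, LinearMap.proj_apply, LinearMap.proj_apply]
        simp [hkl.symm]⟩
    convert this using 2
    ext y
    rw [mem_ofPred_eq, mem_ofPred_eq, LinearMap.sub_apply, LinearMap.proj_apply,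
      LinearMap.proj_apply, sub_eq_zero]
    rfl

theorem volume_zon (d : ℕ) (c : ℝ) (hc : 0 ≤ c) :
    volume (zon d c) = ENNReal.ofReal ((d + 1) * c ^ d) := by
  rw [zon_eq_iUnion d c hc, measure_iUnion₀ _ (fun o => (measurableSet_zpiece d c hc o).nullMeasurableSet)]
  · simp only [volume_zpiece d c hc, tsum_fintype, Finset.sum_const, Finset.card_univ,
      Fintype.card_option, Fintype.card_fin, nsmul_eq_mul]
    rw [ENNReal.ofReal_mul (by positivity)]
    congr 1
    rw [← ENNReal.ofReal_natCast]
    push_cast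
    rfl
  · intro o p hop
    refine measure_mono_null ?_ (volume_zval_eq o p hop)
    rintro x ⟨hx1, hx2⟩
    have a := (hx1 p).1
    have b := (hx2 o).1
    simp only [mem_ofPred_eq]
    linarith

end Claimed.Agent.R032
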