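import Mathlib
import Claimed.Agent.R032.Shadow
import Claimed.Agent.R032.ZonVol

set_option autoImplicit false

namespace Claimed.Agent.R032

open Set MeasureTheory
open scoped RealInnerProductSpace ENNReal

/-- the projection body, for unit directions -/
def projBody {d : ℕ} (K : Set (EE d)) : Set (EE d) :=
  {x | ∀ u : EE d, ‖u‖ = 1 → ⟪u, x⟫ ≤ (shadow K u).toReal}

theorem projBody_PP (a b : ℕ) (hK : IsCompact (PP a b)) (hc : Convex ℝ (PP a b)) :
    projBody (PP a b) =
      blk a b (zon a (a / (a.factorial * b.factorial))) (zon b (b / (a.factorial * b.factorial))) := by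
  have h := projbody_eq a b (a / (a.factorial * b.factorial)) (b / (a.factorial * b.factorial))
  unfold zon
  rw [← h]
  ext x
  simp only [projBody, mem_ofPred_eq]
  refine forall_congr' fun u => forall_congr' fun hu => ?_
  rw [shadow_PP a b hK hc u hu]
  have : (1 : ℝ) / (a.factorial * b.factorial) * (a * S (fstB u) + b * S (sndB u)) =
      a / (a.factorial * b.factorial) * S (fstB u) +
        b / (a.factorial * b.factorial) * S (sndB u) := by
    field_simp
  rw [this]

theorem volume_projBody_PP (a b : ℕ) (hK : IsCompact (PP a b)) (hc : Convex ℝ (PP a b)) :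
    volume (projBody (PP a b)) =
      ENNReal.ofReal (((a + 1) * (a / (a.factorial * b.factorial)) ^ a) *
        ((b + 1) * (b / (a.factorial * b.factorial)) ^ b)) := by
  rw [projBody_PP a b hK hc, volume_blk, volume_zon _ _ (by positivity),
    volume_zon _ _ (by positivity), ← ENNReal.ofReal_mul (by positivity)]

end Claimed.Agent.R032
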