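import Mathlib
import Claimed.Agent.R032.Blk
import Claimed.Agent.R032.ZonVol
import Claimed.Agent.R032.ProdVol
import Claimed.Agent.R032.Fubini

set_option autoImplicit false
open Set MeasureTheory
open scoped RealInnerProductSpace

namespace Claimed.Agent.R032.H32

theorem volume_blk (a b : ℕ) (A : Set (Fin a → ℝ)) (B : Set (Fin b → ℝ)) :
    volume (blk a b A B) = volume A * volume B := by
  have h := volume_euc (a + b) {x : Fin (a + b) → ℝ | (fun i => x (Fin.castAdd b i)) ∈ A ∧
      (fun i => x (Fin.natAdd a i)) ∈ B}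
  rw [volume_block] at h
  exact h

theorem volume_KK (a b : ℕ) :
    (volume (blk a b (cs a 0 1) (cs b 0 1))).toReal = 1 / (a.factorial * b.factorial) := by
  rw [volume_blk, volume_cs _ _ _ (by simp), volume_cs _ _ _ (by simp), ENNReal.toReal_mul]
  simp only [Pi.zero_apply, Finset.sum_const_zero, sub_zero, one_pow]
  rw [ENNReal.toReal_ofReal (by positivity), ENNReal.toReal_ofReal (by positivity)]
  field_simp

theorem volume_zz (a b : ℕ) (c1 c2 : ℝ) (h1 : 0 ≤ c1) (h2 : 0 ≤ c2) :
    (volume (blk a b (zon a c1) (zon b c2))).toReal =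
      ((a + 1) * c1 ^ a) * ((b + 1) * c2 ^ b) := by
  rw [volume_blk, volume_zon _ _ h1, volume_zon _ _ h2, ENNReal.toReal_mul,
    ENNReal.toReal_ofReal (by positivity), ENNReal.toReal_ofReal (by positivity)]

/-- projection body from a shadow formula (subspace-volume version, unit directions) -/
theorem projbody_of_shadow (a b : ℕ) (c1 c2 : ℝ) (σ : EE (a + b) → ℝ)
    (h : ∀ u : EE (a + b), ‖u‖ = 1 → σ u = c1 * S (fstB u) + c2 * S (sndB u)) :
    {x : EE (a + b) | ∀ u : EE (a + b), ‖u‖ = 1 → ⟪u, x⟫ ≤ σ u} =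
      blk a b (zon a c1) (zon b c2) := by
  rw [show blk a b (zon a c1) (zon b c2) = _ from (projbody_eq a b c1 c2).symm]
  ext x
  constructor
  · intro hx u hu
    rw [← h u hu]; exact hx u hu
  · intro hx u hu
    rw [h u hu]; exact hx u hu

end Claimed.Agent.R032.H32
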